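import Vale.Agent.P362.H4.QM
import Mathlib.Analysis.SpecialFunctions.Log.Base

/-!
# The rate: parameters and final assembly
-/

namespace Vale.Agent.P362.H4

open Vale.Agent.P362 Vale.Agent.P362.Asy Filter Topology

theorem one_div_sqrt_p0 (k : ℕ) :
    1 / Real.sqrt (((1 / 32 : ℝ) ^ k / 2) ^ 2) = 2 ^ (5 * k + 1) := by
  rw [Real.sqrt_sq (by positivity), one_div_pow, pow_add, pow_mul]
  norm_num
  field_simp

theorem ceil_p0 (k : ℕ) : (⌈24 / ((1 / 32 : ℝ) ^ k / 2) ^ 2⌉₊ : ℝ) ≤ 2 ^ (10 * k + 7) := by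
  have e : 24 / ((1 / 32 : ℝ) ^ k / 2) ^ 2 = 96 * 2 ^ (10 * k) := by
    have h32 : (32 : ℝ) ^ k = 2 ^ (5 * k) := by rw [pow_mul]; norm_num
    rw [one_div_pow, h32, show 10 * k = 5 * k + 5 * k by ring, pow_add]
    field_simp
    norm_num
  have h : ⌈24 / ((1 / 32 : ℝ) ^ k / 2) ^ 2⌉₊ ≤ 96 * 2 ^ (10 * k) := by
    rw [Nat.ceil_le, e]
    push_cast
    exact le_rfl
  have h2 : 96 * 2 ^ (10 * k) ≤ 2 ^ (10 * k + 7) := by
    rw [pow_add]
    have : 0 < 2 ^ (10 * k) := by positivity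
    omega
  exact_mod_cast h.trans h2

theorem qc_nonneg (K : ℕ) (p0 : ℝ) : 0 ≤ qc K p0 := by
  unfold qc
  positivity

theorem qc_le (K k : ℕ) (hk : 1 ≤ k) :
    |qc K (((1 / 32 : ℝ) ^ k / 2) ^ 2)| ≤ K * 2 ^ (25 * k + 31) := by
  rw [abs_of_nonneg (qc_nonneg _ _)]
  unfold qc
  rw [one_div_sqrt_p0]
  have h1 := ceil_p0 k
  have h2 : (⌈24 / ((1 / 32 : ℝ) ^ k / 2) ^ 2⌉₊ : ℝ) ^ 2 ≤ (2 ^ (10 * k + 7)) ^ 2 :=
    pow_le_pow_left₀ (Nat.cast_nonneg _) h1 2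
  have h3 : (2 : ℝ) + 2 * (1 + 2 ^ (5 * k + 1)) ≤ 2 ^ (5 * k + 3) := by
    have e1 : (2 : ℝ) ^ (5 * k + 3) = 2 * 2 ^ (5 * k + 1) + 2 * 2 ^ (5 * k + 1) := by
      rw [show 5 * k + 3 = (5 * k + 1) + 2 by ring, pow_add]
      ring
    have e2 : (2 : ℝ) ^ 2 ≤ 2 ^ (5 * k + 1) := pow_le_pow_right₀ (by norm_num) (by omega)
    rw [e1]
    linarith
  calc (10000 : ℝ) * (K : ℝ) * (⌈24 / ((1 / 32 : ℝ) ^ k / 2) ^ 2⌉₊ : ℝ) ^ 2 *
        ((2 : ℝ) + 2 * (1 + 2 ^ (5 * k + 1)))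
      ≤ (2 : ℝ) ^ 14 * (K : ℝ) * ((2 : ℝ) ^ (10 * k + 7)) ^ 2 * (2 : ℝ) ^ (5 * k + 3) := by
        refine mul_le_mul ?_ h3 (by positivity) (by positivity)
        refine mul_le_mul ?_ h2 (by positivity) (by positivity)
        refine mul_le_mul_of_nonneg_right (by norm_num) (Nat.cast_nonneg _)
    _ = (K : ℝ) * (2 : ℝ) ^ (25 * k + 31) := by
        rw [← pow_mul, show 25 * k + 31 = 14 + (10 * k + 7) * 2 + (5 * k + 3) by ring,
          pow_add _ (14 + (10 * k + 7) * 2), pow_add _ 14]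
        ring

theorem aux1 (s : ℕ) : 7 * (s + 1) + 20 ≤ 2 ^ (s + 5) := by
  induction s with
  | zero => norm_num
  | succ s ih =>
    have h : 2 ^ (s + 1 + 5) = 2 ^ (s + 5) + 2 ^ (s + 5) := by ring
    have h2 : 2 ^ 5 ≤ 2 ^ (s + 5) := Nat.pow_le_pow_right (by norm_num) (by omega)
    omega

theorem aux2 (s : ℕ) : 2 * (s + 1) + 6 ≤ 2 ^ (s + 3) := by
  induction s with
  | zero => norm_num
  | succ s ih =>
    have h : 2 ^ (s + 1 + 3) = 2 ^ (s + 3) + 2 ^ (s + 3) := by ring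
    have h2 : 2 ^ 3 ≤ 2 ^ (s + 3) := Nat.pow_le_pow_right (by norm_num) (by omega)
    omega

theorem aux3 (s : ℕ) : nn s (3 * s + 9) ≤ 2 ^ (s + 7) := by
  unfold nn
  have h : ∀ s : ℕ, 12 * ((s + 2) * (s + 3)) ≤ 2 ^ (s + 7) ∧ 24 * (s + 3) ≤ 2 ^ (s + 7) := by
    intro s
    induction s with
    | zero => norm_num
    | succ s ih =>
      have h : 2 ^ (s + 1 + 7) = 2 ^ (s + 7) + 2 ^ (s + 7) := by ring
      have h2 : 2 ^ 7 ≤ 2 ^ (s + 7) := Nat.pow_le_pow_right (by norm_num) (by omega)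
      have e : 12 * ((s + 1 + 2) * (s + 1 + 3)) = 12 * ((s + 2) * (s + 3)) + 24 * (s + 3) := by ring
      constructor
      · omega
      · omega
  have h1 := (h s).1
  calc 4 * (s + 2) * (3 * s + 9) = 12 * ((s + 2) * (s + 3)) := by ring
    _ ≤ _ := h1

/-- the quantum upper bound for the hard function with parameter `s`, explicit -/
theorem Q_upper_explicit : ∃ K : ℕ, ∀ s : ℕ,
    (Q (gg s (3 * s + 9)) : ℝ) ≤ K * 2 ^ (6 * s ^ 2 + 65 * s + 150) := by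
  obtain ⟨K, hK⟩ := qUp_explicit
  refine ⟨K, fun s => ?_⟩
  have hn : 1 ≤ nn s (3 * s + 9) := by
    unfold nn
    nlinarith
  obtain ⟨T, hT, hTle⟩ := hK (s + 1) (nn s (3 * s + 9)) (th s (3 * s + 9)) hn (Int.le_ceil _)
  have h1 : (Q (gg s (3 * s + 9)) : ℝ) ≤ T := by exact_mod_cast Tr.Q_le hT
  refine h1.trans (hTle.trans ?_)
  rw [sqrt_nn]
  have a1 : ((7 * (s + 1) + 20 : ℕ) : ℝ) ^ 4 ≤ (2 ^ (s + 5)) ^ 4 :=
    pow_le_pow_left₀ (Nat.cast_nonneg _) (by exact_mod_cast aux1 s) 4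
  have a2 : (2 : ℝ) * ((s + 1 : ℕ) : ℝ) + 6 ≤ 2 ^ (s + 3) := by exact_mod_cast aux2 s
  have a3 : ((nn s (3 * s + 9) : ℕ) : ℝ) ^ (4 + 1) ≤ (2 ^ (s + 7)) ^ (4 + 1) :=
    pow_le_pow_left₀ (Nat.cast_nonneg _) (by exact_mod_cast aux3 s) (4 + 1)
  have a4 := qc_le K (s + 1) (by omega)
  calc |qc K (((1 / 32 : ℝ) ^ (s + 1) / 2) ^ 2)| * ((7 * (s + 1) + 20 : ℕ) : ℝ) ^ 4 *
        ((2 : ℝ) * ((s + 1 : ℕ) : ℝ) + 6) * ((nn s (3 * s + 9) : ℕ) : ℝ) ^ (4 + 1) *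
        (2 : ℝ) ^ (2 * (s + 2) * (3 * s + 9))
      ≤ ((K : ℝ) * (2 : ℝ) ^ (25 * (s + 1) + 31)) * ((2 : ℝ) ^ (s + 5)) ^ 4 *
        (2 : ℝ) ^ (s + 3) * ((2 : ℝ) ^ (s + 7)) ^ (4 + 1) *
        (2 : ℝ) ^ (2 * (s + 2) * (3 * s + 9)) := by
        refine mul_le_mul_of_nonneg_right ?_ (by positivity)
        refine mul_le_mul ?_ a3 (by positivity) (by positivity)
        refine mul_le_mul ?_ a2 (by positivity) (by positivity)
        exact mul_le_mul a4 a1 (by positivity) (by positivity)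
    _ = (K : ℝ) * (2 : ℝ) ^ (6 * s ^ 2 + 65 * s + 150) := by
        rw [← pow_mul, ← pow_mul, show 6 * s ^ 2 + 65 * s + 150 =
          (25 * (s + 1) + 31) + (s + 5) * 4 + (s + 3) + (s + 7) * (4 + 1) +
            2 * (s + 2) * (3 * s + 9) by ring,
          pow_add _ ((25 * (s + 1) + 31) + (s + 5) * 4 + (s + 3) + (s + 7) * (4 + 1)),
          pow_add _ ((25 * (s + 1) + 31) + (s + 5) * 4 + (s + 3)),
          pow_add _ ((25 * (s + 1) + 31) + (s + 5) * 4),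
          pow_add _ (25 * (s + 1) + 31)]
        ring

/-- the exponent of the upper bound -/
def ee (s : ℕ) : ℕ := 6 * s ^ 2 + 65 * s + 150

/-- the parameter of the hard function for a given budget -/
noncomputable def par (K : ℕ) (q : ℕ) : ℕ := Nat.findGreatest (fun s => (K + 1) * 2 ^ ee s ≤ q) q

theorem par_spec {K q : ℕ} (hq : (K + 1) * 2 ^ ee 0 ≤ q) :
    (K + 1) * 2 ^ ee (par K q) ≤ q ∧ q < (K + 1) * 2 ^ ee (par K q + 1) := by
  have hP : (K + 1) * 2 ^ ee (par K q) ≤ q :=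
    Nat.findGreatest_spec (P := fun s => (K + 1) * 2 ^ ee s ≤ q) (Nat.zero_le q) hq
  refine ⟨hP, ?_⟩
  by_contra hcon
  push Not at hcon
  have hle : par K q + 1 ≤ q := by
    have h1 : par K q + 1 ≤ ee (par K q + 1) := by
      unfold ee
      nlinarith
    have h2 : ee (par K q + 1) < 2 ^ ee (par K q + 1) := Nat.lt_two_pow_self
    have h3 : 2 ^ ee (par K q + 1) ≤ (K + 1) * 2 ^ ee (par K q + 1) :=
      Nat.le_mul_of_pos_left _ (by omega)
    omega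
  have h4 := Nat.le_findGreatest (P := fun s => (K + 1) * 2 ^ ee s ≤ q) hle hcon
  have h5 : Nat.findGreatest (fun s => (K + 1) * 2 ^ ee s ≤ q) q = par K q := rfl
  omega

theorem sqrt_log_ge {K q : ℕ} (hq : (K + 1) * 2 ^ ee 0 ≤ q) :
    (par K q : ℝ) + 1 ≤ Real.sqrt (Real.logb 2 q) := by
  obtain ⟨h1, _⟩ := par_spec hq
  set s := par K q with hs
  have h2 : 2 ^ ((s + 1) ^ 2) ≤ q := by
    refine le_trans ?_ h1
    calc 2 ^ ((s + 1) ^ 2) ≤ 2 ^ ee s := Nat.pow_le_pow_right (by norm_num) (by unfold ee; nlinarith)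
      _ ≤ (K + 1) * 2 ^ ee s := Nat.le_mul_of_pos_left _ (by omega)
  have h3 : (((s + 1) ^ 2 : ℕ) : ℝ) ≤ Real.logb 2 q := by
    rw [Real.le_logb_iff_rpow_le (by norm_num) (by
      have : 0 < q := lt_of_lt_of_le (by positivity) h2
      exact_mod_cast this), Real.rpow_natCast]
    exact_mod_cast h2
  refine Real.le_sqrt_of_sq_le ?_
  push_cast at h3
  exact h3

/-- the lower bound with the rate, for the hard functions -/
theorem main_rate : ∃ (q0 : ℕ) (A : ℝ), 0 ≤ A ∧ ∀ q : ℕ, q0 ≤ q → ∃ s : ℕ,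
    (Q (gg s (3 * s + 9)) : ℝ) ≤ q ∧
    (q : ℝ) ^ 4 / 2 ^ (A * Real.sqrt (Real.logb 2 q)) ≤ R (gg s (3 * s + 9)) := by
  obtain ⟨K, hK⟩ := Q_upper_explicit
  refine ⟨(K + 1) * 2 ^ ee 0, ((4 * (K + 1) + 815 : ℕ) : ℝ), Nat.cast_nonneg _, fun q hq => ?_⟩
  obtain ⟨h1, h2⟩ := par_spec hq
  have h3 := sqrt_log_ge hq
  set s := par K q with hs
  refine ⟨s, ?_, ?_⟩
  · refine (hK s).trans ?_
    have h4 : K * 2 ^ ee s ≤ q := le_trans (Nat.mul_le_mul_right _ (by omega)) h1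
    have h5 : ((K * 2 ^ ee s : ℕ) : ℝ) ≤ q := by exact_mod_cast h4
    unfold ee at h5
    push_cast at h5
    exact h5
  · refine le_trans ?_ (R_lower_explicit s)
    rw [div_le_iff₀ (by positivity)]
    -- `2 ^ (A √)` dominates `2 ^ (A (s+1))`
    have h6 : ((2 : ℝ) ^ ((4 * (K + 1) + 815) * (s + 1)) : ℝ) ≤
        2 ^ (((4 * (K + 1) + 815 : ℕ) : ℝ) * Real.sqrt (Real.logb 2 q)) := by
      rw [← Real.rpow_natCast]
      refine Real.rpow_le_rpow_of_exponent_le (by norm_num) ?_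
      rw [Nat.cast_mul]
      refine mul_le_mul_of_nonneg_left ?_ (Nat.cast_nonneg _)
      push_cast
      exact h3
    have h7 : (q : ℝ) ≤ (K + 1) * 2 ^ ee (s + 1) := by
      have : (q : ℝ) ≤ (((K + 1) * 2 ^ ee (s + 1) : ℕ) : ℝ) := by exact_mod_cast h2.le
      push_cast at this
      exact this
    have h8 : ((K : ℝ) + 1) ≤ 2 ^ (K + 1) := by
      have : K + 1 ≤ 2 ^ (K + 1) := Nat.lt_two_pow_self.le
      exact_mod_cast this
    calc (q : ℝ) ^ 4 ≤ (((K : ℝ) + 1) * (2 : ℝ) ^ ee (s + 1)) ^ 4 :=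
          pow_le_pow_left₀ (Nat.cast_nonneg _) h7 4
      _ ≤ ((2 : ℝ) ^ (K + 1) * (2 : ℝ) ^ ee (s + 1)) ^ 4 := by
          have h9 : (0 : ℝ) ≤ (2 : ℝ) ^ ee (s + 1) := pow_nonneg (by norm_num) _
          have h10 : (0 : ℝ) ≤ (K : ℝ) + 1 := add_nonneg (Nat.cast_nonneg _) zero_le_one
          exact pow_le_pow_left₀ (mul_nonneg h10 h9) (mul_le_mul_of_nonneg_right h8 h9) 4
      _ = (2 : ℝ) ^ (4 * (K + 1) + 4 * ee (s + 1)) := by
          rw [← pow_add, ← pow_mul]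
          congr 1
          ring
      _ ≤ (2 : ℝ) ^ (8 * (s + 1) * (3 * s + 9)) / 8 *
          (2 : ℝ) ^ ((4 * (K + 1) + 815) * (s + 1)) := by
          rw [div_mul_eq_mul_div, le_div_iff₀ (by norm_num)]
          calc (2 : ℝ) ^ (4 * (K + 1) + 4 * ee (s + 1)) * 8
              = (2 : ℝ) ^ (4 * (K + 1) + 4 * ee (s + 1) + 3) := by
                rw [pow_add _ _ 3]; norm_num
            _ ≤ (2 : ℝ) ^ (8 * (s + 1) * (3 * s + 9) + (4 * (K + 1) + 815) * (s + 1)) := by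
                refine pow_le_pow_right₀ (by norm_num) ?_
                unfold ee
                have : 8 * (s + 1) * (3 * s + 9) + (4 * (K + 1) + 815) * (s + 1) =
                    4 * (K + 1) + 4 * (6 * (s + 1) ^ 2 + 65 * (s + 1) + 150) + 3 +
                      (603 * s + 4 * (K + 1) * s) := by ring
                rw [this]
                exact Nat.le_add_right _ _
            _ = _ := pow_add _ _ _
      _ ≤ (2 : ℝ) ^ (8 * (s + 1) * (3 * s + 9)) / 6 *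
          (2 : ℝ) ^ (((4 * (K + 1) + 815 : ℕ) : ℝ) * Real.sqrt (Real.logb 2 q)) := by
          have h11 : (0 : ℝ) ≤ (2 : ℝ) ^ (8 * (s + 1) * (3 * s + 9)) := pow_nonneg (by norm_num) _
          have h12 : (0 : ℝ) ≤ (2 : ℝ) ^ ((4 * (K + 1) + 815) * (s + 1)) :=
            pow_nonneg (by norm_num) _
          refine mul_le_mul ?_ h6 h12 (div_nonneg h11 (by norm_num))
          exact div_le_div_of_nonneg_left h11 (by norm_num) (by norm_num)

end Vale.Agent.P362.H4
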