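import Vale.Agent.P362.H4.Asy

/-!
# The rate for every budget
-/

namespace Vale.Agent.P362.H4

open Vale.Agent.P362 Vale.Agent.P362.Asy

/-- the one-bit function -/
def bit1 (x : Fin 1 → Bool) : Bool := x 0

theorem Q_bit1 : Q bit1 ≤ 1 := by
  refine Tr.Q_le (quantComputes_of_ach _ 1 (fun (x : Fin 1 → Bool) (b : Bool) =>
    if x 0 = b then (1 : ℝ) else 0) (AmpAux.ach_read 0) ?_)
  intro x
  simp only [bit1, if_true]
  norm_num

theorem R_bit1 : 1 ≤ R bit1 := by
  by_contra h
  have h0 : R bit1 = 0 := by omega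
  have h1 := Tr.rand_R bit1
  rw [h0] at h1
  obtain ⟨p, hp, hx⟩ := h1
  have ha := hx (fun _ => true)
  have hb := hx (fun _ => false)
  rw [PMF.toOuterMeasure_apply] at ha hb
  have hab := add_le_add ha hb
  rw [← ENNReal.tsum_add] at hab
  have hle : ∑' t, (Set.indicator {t : DT (Fin 1) | t.eval (fun _ => true) =
        bit1 (fun _ => true)} p t +
      Set.indicator {t : DT (Fin 1) | t.eval (fun _ => false) = bit1 (fun _ => false)} p t) ≤
      ∑' t, p t := by
    refine ENNReal.tsum_le_tsum fun t => ?_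
    by_cases ht : t ∈ p.support
    · have hd := hp t ht
      cases t with
      | leaf b =>
        cases b with
        | false =>
          have h2 : (DT.leaf false : DT (Fin 1)) ∉ {t : DT (Fin 1) | t.eval (fun _ => true) =
              bit1 (fun _ => true)} := by
            intro h
            exact absurd h (by simp [bit1])
          rw [Set.indicator_of_notMem h2, zero_add]
          exact Set.indicator_le_self _ _ _
        | true =>
          have h2 : (DT.leaf true : DT (Fin 1)) ∉ {t : DT (Fin 1) | t.eval (fun _ => false) =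
              bit1 (fun _ => false)} := by
            intro h
            exact absurd h (by simp [bit1])
          rw [Set.indicator_of_notMem h2, add_zero]
          exact Set.indicator_le_self _ _ _
      | node i t0 t1 =>
        rw [DT.depth_node] at hd
        omega
    · have h2 : p t = 0 := by
        rw [PMF.mem_support_iff, not_not] at ht
        exact ht
      have h3 : ∀ S : Set (DT (Fin 1)), S.indicator p t = 0 := by
        intro S
        by_cases h : t ∈ S
        · rw [Set.indicator_of_mem h, h2]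
        · rw [Set.indicator_of_notMem h]
      rw [h3, h3, add_zero]
      exact bot_le
  rw [p.tsum_coe] at hle
  have h4 := hab.trans hle
  rw [ENNReal.div_add_div_same, ENNReal.div_le_iff (by norm_num) (by norm_num)] at h4
  norm_num at h4

theorem Q_bit1_ge : 1 ≤ Q bit1 := by
  by_contra h
  have h0 : Q bit1 = 0 := by omega
  have h1 := UB.R_le_Q_pow 1 le_rfl bit1
  have h2 : (1 : ℝ) ≤ R bit1 := by exact_mod_cast R_bit1
  rw [h0] at h1
  norm_num at h1
  rw [h1] at h2
  norm_num at h2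

/-- lower bound for `Q` from the lower bound for `R` -/
theorem Q_ge {n : ℕ} (hn : 1 ≤ n) (f : (Fin n → Bool) → Bool) (q e : ℝ)
    (he : 40 ≤ e ^ 3) (he1 : 0 < e) (h : q ^ 4 / e ^ 4 ≤ R f) : q / e ^ 4 ≤ Q f := by
  have h1 := UB.R_le_Q_pow n hn f
  have h2 : (q / e) ^ 4 ≤ (40 * (Q f : ℝ)) ^ 4 := by
    rw [div_pow, mul_pow]
    refine h.trans (h1.trans (le_of_eq ?_))
    norm_num
  have h3 : q / e ≤ 40 * (Q f : ℝ) := le_of_pow_le_pow_left₀ (by norm_num) (by positivity) h2
  have h4 : q / e ^ 4 = q / e / e ^ 3 := by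
    field_simp
  rw [h4, div_le_iff₀ (by positivity)]
  refine h3.trans ?_
  rw [mul_comm]
  exact mul_le_mul_of_nonneg_left he (Nat.cast_nonneg _)

/-- For every budget `q ≥ 1` there is a total function with `Q f ≤ q`, `Q f` almost `q` and
`R f` almost `q ^ 4`. -/
theorem rate : ∃ A : ℝ, ∀ q : ℕ, 1 ≤ q → ∃ n : ℕ, 1 ≤ n ∧ ∃ f : (Fin n → Bool) → Bool,
    (q : ℝ) / 2 ^ (A * √(Real.logb 2 q)) ≤ Q f ∧ (Q f : ℝ) ≤ q ∧
    (q : ℝ) ^ 4 / 2 ^ (A * √(Real.logb 2 q)) ≤ R f := by
  obtain ⟨q0, A, hA, hmain⟩ := main_rate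
  refine ⟨A + 8 + 4 * (q0 : ℝ), fun q hq => ?_⟩
  rcases Nat.eq_or_lt_of_le hq with hq1 | hq2
  · -- budget one
    refine ⟨1, le_rfl, bit1, ?_, ?_, ?_⟩
    · rw [← hq1]
      simp only [Nat.cast_one, Real.logb_one, Real.sqrt_zero, mul_zero, Real.rpow_zero, div_one]
      exact_mod_cast Q_bit1_ge
    · rw [← hq1]
      exact_mod_cast Q_bit1
    · rw [← hq1]
      simp only [Nat.cast_one, Real.logb_one, Real.sqrt_zero, mul_zero, Real.rpow_zero, div_one,
        one_pow]
      exact_mod_cast R_bit1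
  have hq' : (2 : ℝ) ≤ q := by exact_mod_cast hq2
  have hL1 : 1 ≤ √(Real.logb 2 q) := by
    rw [Real.one_le_sqrt, Real.le_logb_iff_rpow_le (by norm_num) (by linarith), Real.rpow_one]
    exact hq'
  have hmain' := hmain q
  set L := √(Real.logb 2 q) with hL
  clear_value L
  set e := (2 : ℝ) ^ (((A + 8 + 4 * (q0 : ℝ)) / 4) * L) with he
  have he4 : (2 : ℝ) ^ ((A + 8 + 4 * (q0 : ℝ)) * L) = e ^ 4 := by
    rw [he, ← Real.rpow_natCast, ← Real.rpow_mul (by norm_num)]
    congr 1
    push_cast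
    ring
  have he0 : 0 < e := Real.rpow_pos_of_pos (by norm_num) _
  have hq0' : (0 : ℝ) ≤ q0 := Nat.cast_nonneg _
  have he2 : (4 : ℝ) ≤ e := by
    calc (4 : ℝ) = (2 : ℝ) ^ (2 : ℝ) := by norm_num
      _ ≤ e := by
        rw [he]
        refine Real.rpow_le_rpow_of_exponent_le (by norm_num) ?_
        nlinarith
  have he3 : (40 : ℝ) ≤ e ^ 3 := by
    calc (40 : ℝ) ≤ 4 ^ 3 := by norm_num
      _ ≤ e ^ 3 := pow_le_pow_left₀ (by norm_num) he2 3
  rw [he4]
  rcases le_or_gt q0 q with hqq | hqq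
  · -- large budgets
    obtain ⟨s, h1, h2⟩ := hmain' hqq
    have h3 : (q : ℝ) ^ 4 / e ^ 4 ≤ R (gg s (3 * s + 9)) := by
      refine le_trans ?_ h2
      rw [← he4]
      refine div_le_div_of_nonneg_left (by positivity) (Real.rpow_pos_of_pos (by norm_num) _) ?_
      refine Real.rpow_le_rpow_of_exponent_le (by norm_num) ?_
      nlinarith
    have en : Pos (s + 1) (nn s (3 * s + 9)) ((s + 1 + 1) * nn s (3 * s + 9) + 2) ≃
        Fin (Fintype.card (Pos (s + 1) (nn s (3 * s + 9))
          ((s + 1 + 1) * nn s (3 * s + 9) + 2))) := Fintype.equivFin _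
    have hn : 1 ≤ Fintype.card (Pos (s + 1) (nn s (3 * s + 9))
          ((s + 1 + 1) * nn s (3 * s + 9) + 2)) := Fintype.card_pos
    refine ⟨_, hn, fun y => gg s (3 * s + 9) (fun i => y (en i)), ?_, ?_, ?_⟩
    · refine Q_ge hn _ q e he3 he0 ?_
      rw [Tr.R_equiv]
      exact h3
    · rw [Tr.Q_equiv]
      exact h1
    · rw [Tr.R_equiv]
      exact h3
  · -- small budgets
    have h1 : (q : ℝ) ≤ e := by
      calc (q : ℝ) ≤ q0 := by exact_mod_cast hqq.le
        _ ≤ (2 : ℝ) ^ (q0 : ℝ) := by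
          rw [Real.rpow_natCast]
          exact_mod_cast (Nat.lt_two_pow_self (n := q0)).le
        _ ≤ e := by
          rw [he]
          refine Real.rpow_le_rpow_of_exponent_le (by norm_num) ?_
          nlinarith
    have h2 : (q : ℝ) ^ 4 / e ^ 4 ≤ R bit1 := by
      have h3 : (1 : ℝ) ≤ R bit1 := by exact_mod_cast R_bit1
      refine le_trans ?_ h3
      rw [div_le_one (by positivity)]
      exact pow_le_pow_left₀ (Nat.cast_nonneg _) h1 4
    refine ⟨1, le_rfl, bit1, Q_ge le_rfl _ q e he3 he0 h2, ?_, h2⟩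
    have h4 : (Q bit1 : ℝ) ≤ 1 := by exact_mod_cast Q_bit1
    linarith

end Vale.Agent.P362.H4
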