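import Vale.Agent.P362.Bdl.B1
import Mathlib.Analysis.Complex.ExponentialBounds

/-!
# Explicit constants for the classical lower bound

The lower bound `R_lower` of the main development is made effective: the hard function with
parameter `s` is hard already for `m = 3 s + 9`.
-/

namespace Vale.Agent.P362.H4

open Finset Vale.Agent.P362 Vale.Agent.P362.L1Aux Vale.Agent.P362.Asy

/-- the L1 bound with its constant -/
theorem l1_explicit (κ q : ℕ) (hq : 1 ≤ q) (n : ℕ) (t : DT (Fin κ × Idx n)) (D : ℕ)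
    (hD : 1 ≤ D) (htD : t.depth ≤ D) (P : Fin κ × Idx n → ℝ) (hP : ∀ p, |P p| ≤ 1 / 2) :
    (∑ τ : Fin κ → Idx n, |dext τ (fun x => if t.eval x then (1 : ℝ) else 0) P|) ^ (2 * q) ≤
      Real.exp q * (tpc q * D) ^ (q * κ) * (2 ^ n : ℝ) ^ κ := by
  have hcard : (Fintype.card (Idx n) : ℝ) = 2 ^ n := by
    simp only [Idx, Fintype.card_pi, Fintype.card_bool, prod_const, card_univ, Fintype.card_fin,
      Nat.cast_pow, Nat.cast_ofNat]
  have h1 := l1_pow_bound hq hD hP ((hasDepth_dt t).mono htD)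
  rw [hcard] at h1
  have h2 : ∑ τ : Fin κ → Idx n, |dext τ (fun x => if t.eval x then (1 : ℝ) else 0) P| =
      ∑ τ : Fin κ → Idx n, |dmext (tset τ) (fun x => if t.eval x then (1 : ℝ) else 0) P| :=
    sum_congr rfl fun τ _ => by rw [dext_eq]
  rw [h2]
  exact h1

theorem lin_le_two_pow (s : ℕ) : 4 * s + 7 ≤ 2 ^ (s + 3) := by
  induction s with
  | zero => norm_num
  | succ s ih =>
    have h : 2 ^ (s + 1 + 3) = 2 ^ (s + 3) + 2 ^ (s + 3) := by ring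
    have h2 : 2 ^ 3 ≤ 2 ^ (s + 3) := Nat.pow_le_pow_right (by norm_num) (by omega)
    omega

theorem tpc_le (s : ℕ) : tpc (2 * (s + 2)) ≤ 2 ^ (3 * s + 9) := by
  unfold tpc
  have h1 : ((4 * s + 7 : ℕ) : ℝ) ≤ 2 ^ (s + 3) := by exact_mod_cast lin_le_two_pow s
  have h2 : (2 : ℝ) * ((2 * (s + 2) : ℕ) : ℝ) - 1 = ((4 * s + 7 : ℕ) : ℝ) := by
    push_cast
    ring
  rw [h2]
  have h3 : (2 : ℝ) ^ (2 * (s + 2) + 1) * ((4 * s + 7 : ℕ) : ℝ) ≤ 2 ^ (3 * s + 8) := by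
    calc (2 : ℝ) ^ (2 * (s + 2) + 1) * ((4 * s + 7 : ℕ) : ℝ)
        ≤ 2 ^ (2 * (s + 2) + 1) * 2 ^ (s + 3) := mul_le_mul_of_nonneg_left h1 (by positivity)
      _ = 2 ^ (3 * s + 8) := by rw [← pow_add]; congr 1; ring
  have h4 : (2 : ℝ) ^ 8 ≤ 2 ^ (3 * s + 8) := pow_le_pow_right₀ (by norm_num) (by omega)
  have h5 : (2 : ℝ) ^ (3 * s + 9) = 2 ^ (3 * s + 8) + 2 ^ (3 * s + 8) := by
    rw [show 3 * s + 9 = (3 * s + 8) + 1 by ring, pow_succ]
    ring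
  rw [h5]
  have h6 : (4 : ℝ) ≤ 2 ^ 8 := by norm_num
  linarith

theorem exp_two_le : Real.exp 1 ≤ 4 := by
  have := Real.exp_one_lt_d9
  linarith

/-- the L1 bound for the parameters of the construction, all constants explicit -/
theorem l1_param_explicit (s m : ℕ) (t : DT (Fin (s + 1 + 1) × Idx (nn s m)))
    (ht : t.depth ≤ DD s m) (P : Fin (s + 1 + 1) × Idx (nn s m) → ℝ)
    (hP : ∀ p, |P p| ≤ 1 / 2) :
    ∑ τ : Fin (s + 1 + 1) → Idx (nn s m),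
      |dext τ (fun x => if t.eval x then (1 : ℝ) else 0) P| ≤
        2 * 2 ^ ((s + 2) * (2 * s + 5)) * 2 ^ ((s + 2) * (2 * s + 1) * m) := by
  have h1 := l1_explicit (s + 1 + 1) (2 * (s + 2)) (by omega) (nn s m) t (DD s m)
    Nat.one_le_two_pow ht P hP
  set S := ∑ τ : Fin (s + 1 + 1) → Idx (nn s m),
        |dext τ (fun x => if t.eval x then (1 : ℝ) else 0) P| with hS
  have hpow : (2 * (2 * (s + 2))) ≠ 0 := by omega
  refine le_of_pow_le_pow_left₀ hpow (by positivity) (h1.trans ?_)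
  have e0 : Real.exp ((2 * (s + 2) : ℕ) : ℝ) ≤ 2 ^ (2 * (2 * (s + 2))) := by
    calc Real.exp ((2 * (s + 2) : ℕ) : ℝ) = Real.exp 1 ^ (2 * (s + 2)) := by
          rw [← Real.exp_nat_mul, mul_one]
      _ ≤ 4 ^ (2 * (s + 2)) := pow_le_pow_left₀ (Real.exp_pos _).le exp_two_le _
      _ = 2 ^ (2 * (2 * (s + 2))) := by
          rw [show (4 : ℝ) = 2 ^ 2 by norm_num, ← pow_mul]
  have e1 : (tpc (2 * (s + 2)) * (DD s m : ℝ)) ^ (2 * (s + 2) * (s + 1 + 1)) ≤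
      (2 ^ (3 * s + 9) * (DD s m : ℝ)) ^ (2 * (s + 2) * (s + 1 + 1)) := by
    refine pow_le_pow_left₀ ?_ (mul_le_mul_of_nonneg_right (tpc_le s) (Nat.cast_nonneg _)) _
    exact mul_nonneg (tpc_pos (by omega)).le (Nat.cast_nonneg _)
  calc Real.exp ((2 * (s + 2) : ℕ) : ℝ) *
        (tpc (2 * (s + 2)) * (DD s m : ℝ)) ^ (2 * (s + 2) * (s + 1 + 1)) *
        ((2 : ℝ) ^ nn s m) ^ (s + 1 + 1)
      ≤ 2 ^ (2 * (2 * (s + 2))) *
        (2 ^ (3 * s + 9) * (DD s m : ℝ)) ^ (2 * (s + 2) * (s + 1 + 1)) *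
        ((2 : ℝ) ^ nn s m) ^ (s + 1 + 1) := by
        refine mul_le_mul_of_nonneg_right ?_ (by positivity)
        refine mul_le_mul e0 e1 ?_ (by positivity)
        exact pow_nonneg (mul_nonneg (tpc_pos (by omega)).le (Nat.cast_nonneg _)) _
    _ ≤ (2 * 2 ^ ((s + 2) * (2 * s + 5)) * 2 ^ ((s + 2) * (2 * s + 1) * m)) ^
          (2 * (2 * (s + 2))) := by
        unfold DD nn
        push_cast
        rw [← pow_add, ← pow_mul, ← pow_mul, ← pow_add, ← pow_add, ← pow_succ', ← pow_add,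
          ← pow_mul]
        refine pow_le_pow_right₀ (by norm_num) ?_
        have e : ((s + 2) * (2 * s + 5) + 1 + (s + 2) * (2 * s + 1) * m) * (2 * (2 * (s + 2))) =
            2 * (2 * (s + 2)) + (3 * s + 9 + 4 * s * m) * (2 * (s + 2) * (s + 1 + 1)) +
              4 * (s + 2) * m * (s + 1 + 1) + 2 * (s + 2) ^ 2 * (s + 1) := by ring
        rw [e]
        exact Nat.le_add_right _ _

/-- `2 * 2 ^ a = 2 ^ (a+1)` form of the error bound for `m = 3 s + 9` -/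
theorem error_le (s : ℕ) :
    2 * 32 ^ (s + 1) * ((DD s (3 * s + 9) : ℝ) / 2 ^ nn s (3 * s + 9) +
      2 * 2 ^ ((s + 2) * (2 * s + 5)) * 2 ^ ((s + 2) * (2 * s + 1) * (3 * s + 9)) /
        (16 * Real.sqrt (2 ^ nn s (3 * s + 9))) ^ (s + 1)) +
      (DD s (3 * s + 9) : ℝ) / 2 ^ nn s (3 * s + 9) ≤ 1 / 6 := by
  have h32 : (32 : ℝ) ^ (s + 1) = 2 ^ (5 * (s + 1)) := by
    rw [pow_mul]; norm_num
  have h16 : (16 : ℝ) ^ (s + 1) = 2 ^ (4 * (s + 1)) := by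
    rw [pow_mul]; norm_num
  -- first term
  have h1 : (DD s (3 * s + 9) : ℝ) / 2 ^ nn s (3 * s + 9) ≤ (1 / 2) ^ (5 * (s + 1) + 6) := by
    unfold DD nn
    push_cast
    rw [one_div, inv_pow, div_le_iff₀ (by positivity), inv_mul_eq_div, le_div_iff₀ (by positivity),
      ← pow_add]
    exact pow_le_pow_right₀ (by norm_num) (by nlinarith)
  have h2 : (2 : ℝ) * 2 ^ ((s + 2) * (2 * s + 5)) * 2 ^ ((s + 2) * (2 * s + 1) * (3 * s + 9)) /
        (16 * Real.sqrt (2 ^ nn s (3 * s + 9))) ^ (s + 1) ≤ (1 / 2) ^ (5 * (s + 1) + 5) := by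
    rw [sqrt_nn, mul_pow, h16, one_div, inv_pow, div_le_iff₀ (by positivity), inv_mul_eq_div,
      le_div_iff₀ (by positivity), ← pow_mul, ← pow_succ', ← pow_add, ← pow_add, ← pow_add]
    exact pow_le_pow_right₀ (by norm_num) (by nlinarith)
  have h3 : (2 : ℝ) * 32 ^ (s + 1) * (1 / 2) ^ (5 * (s + 1) + 6) = 1 / 32 := by
    rw [h32, pow_add (1 / 2 : ℝ), ← mul_assoc, mul_assoc (2 : ℝ), ← mul_pow]
    norm_num
  have h4 : (2 : ℝ) * 32 ^ (s + 1) * (1 / 2) ^ (5 * (s + 1) + 5) = 1 / 16 := by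
    rw [h32, pow_add (1 / 2 : ℝ), ← mul_assoc, mul_assoc (2 : ℝ), ← mul_pow]
    norm_num
  have h5 : (1 / 2 : ℝ) ^ (5 * (s + 1) + 6) ≤ 1 / 64 := by
    calc (1 / 2 : ℝ) ^ (5 * (s + 1) + 6) ≤ (1 / 2) ^ 6 :=
          pow_le_pow_of_le_one (by norm_num) (by norm_num) (by omega)
      _ = 1 / 64 := by norm_num
  have h6 : (0 : ℝ) ≤ 2 * 32 ^ (s + 1) := by positivity
  have h7 := mul_le_mul_of_nonneg_left (add_le_add h1 h2) h6
  have h8 : (2 : ℝ) * 32 ^ (s + 1) * ((1 / 2) ^ (5 * (s + 1) + 6) + (1 / 2) ^ (5 * (s + 1) + 5)) =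
      3 / 32 := by
    rw [mul_add, h3, h4]
    norm_num
  rw [h8] at h7
  linarith

/-- the classical lower bound, explicit -/
theorem R_lower_explicit (s : ℕ) :
    (2 : ℝ) ^ (8 * (s + 1) * (3 * s + 9)) / 6 ≤ R (gg s (3 * s + 9)) := by
  obtain ⟨H⟩ := exists_hardW (k := s + 1) (n := nn s (3 * s + 9)) (D := DD s (3 * s + 9))
    (by omega)
    (2 * 2 ^ ((s + 2) * (2 * s + 5)) * 2 ^ ((s + 2) * (2 * s + 1) * (3 * s + 9)))
    (fun t ht P hP => l1_param_explicit s (3 * s + 9) t ht P hP)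
  have h := rlow (w := (s + 1 + 1) * nn s (3 * s + 9) + 2) (th s (3 * s + 9))
    (DD s (3 * s + 9)) _ H le_rfl
    (Nat.one_le_two_pow) (error_le s) (R (gg s (3 * s + 9))) (Tr.rand_R (gg s (3 * s + 9)))
  refine le_trans (le_of_eq ?_) h
  congr 1
  unfold DD nn
  push_cast
  rw [← pow_add]
  congr 1
  ring

end Vale.Agent.P362.H4
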