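import Vale.Agent.P362.H4.L1

/-!
# Explicit constants for the quantum upper bound

The quantum algorithm of the main development, with the dependence of its cost on the
forrelation parameter `k` made explicit.
-/

set_option linter.all false

namespace Vale.Agent.P362.H4

open Vale.Agent.P362 Vale.Agent.P362.QM Vale.Agent.P362.Forr

/-- the constant of the quantum algorithm for success amplitude `√p0` -/
noncomputable def qc (K : ℕ) (p0 : ℝ) : ℝ :=
  10000 * K * (⌈24 / p0⌉₊ : ℝ) ^ 2 * (2 + 2 * (1 + 1 / Real.sqrt p0))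

theorem quantum_main_explicit : ∃ K : ℕ, ∀ p0 : ℝ, 0 < p0 →
    ∀ (ι J A C : Type) [Fintype ι] [DecidableEq ι] [Fintype J] [DecidableEq J] [Nonempty J]
      [Fintype A] [DecidableEq A] [Fintype C] [DecidableEq C] [Nonempty C]
      (row : A → J) (el : A → J → DT ι) (viol : A → C → DT ι) (d T0 L : ℕ)
      (Ψ : (ι → Bool) → A → ℂ) (f : (ι → Bool) → Bool),
      1 ≤ L → Fintype.card J ≤ 2 ^ L → Fintype.card A ≤ 2 ^ L → Fintype.card C ≤ 2 ^ L →
      (∀ a j, (el a j).depth ≤ d) → (∀ a c, (viol a c).depth ≤ d) →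
      Prep T0 Ψ →
      (∀ x j, ∑ a, (if row a = j then ‖Ψ x a‖ ^ 2 else 0) ≤ 1 / Fintype.card J) →
      (∀ x, f x = true → ∃ a, p0 / Fintype.card J ≤ ‖Ψ x a‖ ^ 2 ∧
        (∀ c, (viol a c).eval x = false) ∧ (∀ j, j ≠ row a → (el a j).eval x = true) ∧
        (∀ a', (el a' (row a)).eval x = false)) →
      (∀ x, f x = false → ∀ a, ∃ c, (viol a c).eval x = true) →
      ∃ (T : ℕ) (μ : (ι → Bool) → Bool → ℝ), Ach T μ ∧ (∀ x, 2 / 3 ≤ μ x (f x)) ∧
        (T : ℝ) ≤ qc K p0 * ((T0 + d + L : ℕ) : ℝ) ^ 4 *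
          Real.sqrt ((Fintype.card J : ℝ) + (Fintype.card C : ℝ)) := by
  obtain ⟨K, hAA⟩ := exists_AAS
  refine ⟨K, fun p0 hp0 => ?_⟩
  set F : ℕ := ⌈24 / p0⌉₊ with hF
  have hF1 : 1 ≤ F := Nat.ceil_pos.2 (by positivity)
  have hF2 : 24 ≤ p0 * F := by
    have := Nat.le_ceil (24 / p0)
    rw [div_le_iff₀ hp0] at this
    rw [hF]
    linarith only [this]
  intro ι J A C _ _ _ _ _ _ _ _ _ _ row el viol d T0 L Ψ f hL hJL hAL hCL hel hviol hΨ hrow
    hf1 hf0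
  set Y : ℝ := Real.sqrt ((Fintype.card J : ℝ) + (Fintype.card C : ℝ)) with hY
  have hJ1 : (1 : ℝ) ≤ Fintype.card J := by exact_mod_cast Fintype.card_pos
  have hC1 : (1 : ℝ) ≤ Fintype.card C := by exact_mod_cast Fintype.card_pos
  have hJY : Real.sqrt (Fintype.card J) ≤ Y := Real.sqrt_le_sqrt (by linarith only [])
  have hCY : Real.sqrt (Fintype.card C) ≤ Y := Real.sqrt_le_sqrt (by linarith only [])
  have hY1 : 1 ≤ Y := by
    refine le_trans ?_ hJY
    rw [← Real.sqrt_one]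
    exact Real.sqrt_le_sqrt hJ1
  have hs0 : 0 < Real.sqrt p0 := Real.sqrt_pos.2 hp0
  have hsJ : 0 < Real.sqrt ((Fintype.card J : ℝ) / p0) := Real.sqrt_pos.2 (by (clear K hAA F hF hF1 hF2 row el viol d T0 L Ψ f hL hJL hAL hCL hel hviol hΨ hrow hf1 hf0 Y hY hJ1 hC1 hJY hCY hY1 hs0; positivity))
  have hb0 : 0 < 1 / Real.sqrt p0 := by positivity
  obtain ⟨μ, hμ, hμx⟩ := main_prob hAA row el viol d T0 hel hviol Ψ hΨ p0 hp0 hrow f L F
    ⌈Real.sqrt (Fintype.card J)⌉₊ ⌈Real.sqrt ((Fintype.card J : ℝ) / p0)⌉₊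
    ⌈Real.sqrt (Fintype.card C)⌉₊ hL hJL hAL hF1 hF2
    (Nat.ceil_pos.2 (Real.sqrt_pos.2 (by linarith only [hJ1]))) (Nat.ceil_pos.2 hsJ)
    (Nat.ceil_pos.2 (Real.sqrt_pos.2 (by linarith only [hC1])))
    (ceil_sqrt_sq _) (ceil_sqrt_sq _) (ceil_sqrt_sq _) hf1 hf0
  refine ⟨_, μ, hμ, hμx, ?_⟩
  refine cost_bound K T0 d L F _ _ _ Y (2 + 2 * (1 + 1 / Real.sqrt p0)) hL hF1 hY1
    (by linarith only [hb0]) ?_ ?_ ?_
  · have := ceil_le_two _ Y (Real.sqrt_nonneg _) hJY hY1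
    nlinarith only [hb0, this]
  · have h1 : Real.sqrt ((Fintype.card J : ℝ) / p0) ≤ (1 + 1 / Real.sqrt p0) * Y := by
      rw [Real.sqrt_div (by linarith only [])]
      calc Real.sqrt (Fintype.card J) / Real.sqrt p0 ≤ Y / Real.sqrt p0 := by (clear * - hJY hp0; gcongr)
        _ = 1 / Real.sqrt p0 * Y := by ring
        _ ≤ _ := by nlinarith only [hY1]
    have := ceil_le_two _ ((1 + 1 / Real.sqrt p0) * Y) (Real.sqrt_nonneg _) h1 (by nlinarith only [hY1, hb0])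
    nlinarith only [hY1, this]
  · have := ceil_le_two _ Y (Real.sqrt_nonneg _) hCY hY1
    nlinarith only [hb0, this]

theorem qUp_core_explicit (k : ℕ) (K : ℝ) (c : ℕ)
    (hK : ∀ (n w : ℕ) (θ : ℤ) (T0 d L : ℕ), 1 ≤ n →
      (1 / 32 : ℝ) ^ k / 2 * Real.sqrt (2 ^ n) ^ (k + 2) ≤ θ →
      1 ≤ L → 2 ^ n ≤ 2 ^ L → 2 ^ n * 2 ^ n ≤ 2 ^ L → Fintype.card (Chk k n) ≤ 2 ^ L →
      n + 1 ≤ d → 3 * w + n + 2 ≤ d → T0 = k + 1 →
      ∃ T : ℕ, QuantComputes (ff k n w θ) T ∧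
        (T : ℝ) ≤ K * ((T0 + d + L : ℕ) : ℝ) ^ c *
          Real.sqrt ((2 ^ n : ℝ) + (Fintype.card (Chk k n) : ℝ))) :
    ∀ (n : ℕ) (θ : ℤ), 1 ≤ n →
    (1 / 32 : ℝ) ^ k / 2 * Real.sqrt (2 ^ n) ^ (k + 2) ≤ θ →
    ∃ T : ℕ, QuantComputes (ff k n ((k + 1) * n + 2) θ) T ∧
      (T : ℝ) ≤ |K| * ((7 * k + 20 : ℕ) : ℝ) ^ c * (2 * k + 6) * (n : ℝ) ^ (c + 1) *
        Real.sqrt (2 ^ n) := by
  classical
  intro n θ hn hθ
  obtain ⟨T, hT, hTle⟩ := hK n ((k + 1) * n + 2) θ (k + 1) (3 * ((k + 1) * n + 2) + n + 2)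
    ((2 * k + 7) * n) hn hθ (by nlinarith only [hn]) (Nat.pow_le_pow_right (by norm_num) (by nlinarith only []))
    (by rw [← pow_add]; exact Nat.pow_le_pow_right (by norm_num) (by nlinarith only []))
    (by
      refine (card_Chk_le k n hn).trans ?_
      calc (2 * k + 5) * n * 2 ^ n ≤ 2 ^ ((2 * k + 5) * n) * 2 ^ n :=
            Nat.mul_le_mul_right _ (mul_le_two_pow _ _)
        _ = 2 ^ ((2 * k + 5) * n + n) := (pow_add _ _ _).symm
        _ ≤ 2 ^ ((2 * k + 7) * n) := Nat.pow_le_pow_right (by norm_num) (by nlinarith only []))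
    (by nlinarith only []) le_rfl rfl
  refine ⟨T, hT, hTle.trans ?_⟩
  have hn' : (1 : ℝ) ≤ n := by exact_mod_cast hn
  have h1 : ((k + 1 + (3 * ((k + 1) * n + 2) + n + 2) + (2 * k + 7) * n : ℕ) : ℝ) ≤
      ((7 * k + 20 : ℕ) : ℝ) * n := by
    have : k + 1 + (3 * ((k + 1) * n + 2) + n + 2) + (2 * k + 7) * n ≤ (7 * k + 20) * n := by
      nlinarith only [hn]
    exact_mod_cast this
  have h2 : Real.sqrt ((2 ^ n : ℝ) + (Fintype.card (Chk k n) : ℝ)) ≤
      (2 * k + 6) * n * Real.sqrt (2 ^ n) := by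
    have h3 : (2 ^ n : ℝ) + (Fintype.card (Chk k n) : ℝ) ≤ ((2 * k + 6) * n) ^ 2 * 2 ^ n := by
      have h4 : (Fintype.card (Chk k n) : ℝ) ≤ (2 * k + 5) * n * 2 ^ n := by
        exact_mod_cast card_Chk_le k n hn
      have h5 : (2 ^ n : ℝ) ≤ n * 2 ^ n := le_mul_of_one_le_left (by positivity) hn'
      have h6 : (2 ^ n : ℝ) + (Fintype.card (Chk k n) : ℝ) ≤ ((2 * k + 6) * n) * 2 ^ n := by
        nlinarith only [h4, h5]
      refine h6.trans (mul_le_mul_of_nonneg_right ?_ (by positivity))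
      have h7 : (1 : ℝ) ≤ (2 * k + 6) * n := by
        have : (0 : ℝ) ≤ k := Nat.cast_nonneg k
        nlinarith only [hn']
      nlinarith only [h7]
    calc Real.sqrt ((2 ^ n : ℝ) + (Fintype.card (Chk k n) : ℝ))
        ≤ Real.sqrt (((2 * k + 6) * n) ^ 2 * 2 ^ n) := Real.sqrt_le_sqrt h3
      _ = (2 * k + 6) * n * Real.sqrt (2 ^ n) := by
        rw [Real.sqrt_mul (by (clear * - hn; positivity)), Real.sqrt_sq (by positivity)]
  calc K * ((k + 1 + (3 * ((k + 1) * n + 2) + n + 2) + (2 * k + 7) * n : ℕ) : ℝ) ^ c *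
          Real.sqrt ((2 ^ n : ℝ) + (Fintype.card (Chk k n) : ℝ))
      ≤ |K| * (((7 * k + 20 : ℕ) : ℝ) * n) ^ c * ((2 * k + 6) * n * Real.sqrt (2 ^ n)) := by
        gcongr
        exact le_abs_self K
    _ = |K| * ((7 * k + 20 : ℕ) : ℝ) ^ c * (2 * k + 6) * (n : ℝ) ^ (c + 1) *
        Real.sqrt (2 ^ n) := by
        rw [mul_pow, pow_succ]; ring

theorem qUp_explicit : ∃ K : ℕ, ∀ (k n : ℕ) (θ : ℤ), 1 ≤ n →
    (1 / 32 : ℝ) ^ k / 2 * Real.sqrt (2 ^ n) ^ (k + 2) ≤ θ →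
    ∃ T : ℕ, QuantComputes (ff k n ((k + 1) * n + 2) θ) T ∧
      (T : ℝ) ≤ |qc K (((1 / 32 : ℝ) ^ k / 2) ^ 2)| * ((7 * k + 20 : ℕ) : ℝ) ^ 4 *
        (2 * k + 6) * (n : ℝ) ^ (4 + 1) * Real.sqrt (2 ^ n) := by
  classical
  obtain ⟨K, hK'⟩ := quantum_main_explicit
  refine ⟨K, fun k => ?_⟩
  have hK := hK' (((1 / 32 : ℝ) ^ k / 2) ^ 2) (by positivity)
  refine qUp_core_explicit k (qc K (((1 / 32 : ℝ) ^ k / 2) ^ 2)) 4
    fun n w θ T0 d L hn hθ hL hJ hA hC hd1 hd2 hT0 => ?_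
  obtain ⟨viol, hvd, hve⟩ := exists_viol k n w θ
  obtain ⟨el, hed, hee⟩ := exists_elim k n w
  have hN : (0 : ℝ) < 2 ^ n := by positivity
  have hnorm : ∀ (x : Pos k n w → Bool) (a : Idx n × Idx n),
      ‖((Amp (rowD x a.1) a.2 / Real.sqrt (2 ^ n) : ℝ) : ℂ)‖ ^ 2 =
        Amp (rowD x a.1) a.2 ^ 2 / 2 ^ n := by
    intro x a
    rw [Complex.norm_real, Real.norm_eq_abs, sq_abs, div_pow, sqrtN_sq]
  obtain ⟨T, μ, hμ, hμ2, hT⟩ := hK (Pos k n w) (Idx n) (Idx n × Idx n) (Chk k n)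
    Prod.fst el viol d T0 L
    (fun x a => ((Amp (rowD x a.1) a.2 / Real.sqrt (2 ^ n) : ℝ) : ℂ)) (ff k n w θ)
    hL (by rw [card_Idx]; exact hJ) (by rw [Fintype.card_prod, card_Idx]; exact hA) hC
    (fun a j => (hed a j).trans hd1) (fun a c => (hvd a c).trans hd2)
    (by rw [hT0]; exact Forr.forr_prep k n w)
    (by
      intro x j
      simp only [hnorm]
      rw [Fintype.sum_prod_type]
      simp only
      rw [Finset.sum_eq_single j]
      · simp only [if_true]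
        rw [← Finset.sum_div, Amp_sq, card_Idx]
        push_cast
        exact le_rfl
      · intro j' _ hj'
        simp [hj']
      · simp only [Finset.mem_univ, not_true_eq_false, ↓reduceIte, IsEmpty.forall_iff])
    (by
      intro x hx
      have hx' : ∃ a, Valid θ x a := by simpa only [Prod.exists, ff, decide_eq_true_eq] using hx
      obtain ⟨a, ha⟩ := hx'
      refine ⟨a, ?_, ?_, ?_, ?_⟩
      · rw [hnorm, card_Idx]
        push_cast
        have := Amp_ge_of_valid hθ ha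
        (clear * - this; gcongr)
      · intro c
        have h1 := hve a c x
        have h2 : okC θ x a c := ha c
        rw [← Bool.not_eq_true]
        rw [h1]
        exact fun h => h h2
      · intro j hj
        rw [hee a j x]
        exact ⟨hj, ha (.claim j) hj⟩
      · intro a'
        rw [← Bool.not_eq_true, hee a' a.1 x]
        rintro ⟨_, h⟩
        have h2 : x (.bit a.1 (ptrv x a'.1 a'.2 a.1)) = true := ha (.own _)
        rw [h2] at h
        exact absurd h (by simp))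
    (by
      intro x hx a
      have hx' : ¬ ∃ a, Valid θ x a := by
        intro h
        have : ff k n w θ x = true := by simpa only [ff, Prod.exists, decide_eq_true_eq] using h
        rw [hx] at this
        exact absurd this (by simp)
      by_contra hcon
      push Not at hcon
      refine hx' ⟨a, fun c => ?_⟩
      by_contra hc
      exact hcon c ((hve a c x).2 hc))
  refine ⟨T, quantComputes_of_ach _ T μ hμ hμ2, hT.trans (le_of_eq ?_)⟩
  rw [card_Idx]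
  push_cast
  rfl

end Vale.Agent.P362.H4
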